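import Mathlib

/-!
# P110: flatness of Littlewood polynomials whose coefficient sequence is a Kronecker product
-/

open Finset Complex

namespace Vale.Agent.P110

/-- the polynomial `∑_{k < N} ε k z ^ k` at the point `z` -/
noncomputable def poly (ε : ℕ → ℝ) (N : ℕ) (z : ℂ) : ℂ := ∑ k ∈ range N, (ε k : ℂ) * z ^ k

/-- `ε` is a sequence of signs up to `N` -/
def Signs (ε : ℕ → ℝ) (N : ℕ) : Prop := ∀ k < N, ε k = 1 ∨ ε k = -1

/-- `l √N ≤ |P(z)| ≤ u √N` on the unit circle, for the polynomial with coefficients `ε` -/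
def Flat (l u : ℝ) (ε : ℕ → ℝ) (N : ℕ) : Prop :=
  ∀ z : ℂ, ‖z‖ = 1 → l * √N ≤ ‖poly ε N z‖ ∧ ‖poly ε N z‖ ≤ u * √N

/-- the Kronecker product of the sign sequences `a` (of length `m`) and `b` -/
def kron (m : ℕ) (a b : ℕ → ℝ) : ℕ → ℝ := fun n => a (n % m) * b (n / m)

theorem poly_kron (m k : ℕ) (hm : 0 < m) (a b : ℕ → ℝ) (z : ℂ) :
    poly (kron m a b) (m * k) z = poly a m z * poly b k (z ^ m) := by
  induction k with
  | zero => simp [poly]
  | succ k ih =>
    unfold poly at ih ⊢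
    rw [Nat.mul_succ, Finset.sum_range_add, ih, Finset.sum_range_succ, mul_add]
    congr 1
    rw [Finset.sum_mul]
    refine Finset.sum_congr rfl fun x hx => ?_
    have hx' : x < m := Finset.mem_range.mp hx
    have h1 : (m * k + x) % m = x := by
      rw [Nat.mul_add_mod, Nat.mod_eq_of_lt hx']
    have h2 : (m * k + x) / m = k := by
      rw [Nat.mul_add_div hm, Nat.div_eq_of_lt hx', add_zero]
    simp only [kron, h1, h2]
    push_cast
    ring

theorem signs_kron (m k : ℕ) (hm : 0 < m) (a b : ℕ → ℝ) (ha : Signs a m) (hb : Signs b k) :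
    Signs (kron m a b) (m * k) := by
  intro n hn
  have h1 := ha (n % m) (Nat.mod_lt _ hm)
  have h2 := hb (n / m) (Nat.div_lt_of_lt_mul hn)
  unfold kron
  rcases h1 with h1 | h1 <;> rcases h2 with h2 | h2 <;> simp [h1, h2]

/-- orthogonality of the characters of the `n`-th roots of unity -/
theorem orth {n : ℕ} (hn : 0 < n) {ζ : ℂ} (hζ : IsPrimitiveRoot ζ n) (i l : ℕ) :
    ∑ j ∈ range n, (ζ ^ j) ^ i * (starRingEnd ℂ) ((ζ ^ j) ^ l) =
      if i % n = l % n then (n : ℂ) else 0 := by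
  have hz : ‖ζ‖ = 1 := hζ.norm'_eq_one hn.ne'
  have hne : ζ ≠ 0 := hζ.ne_zero hn.ne'
  have hconj : (starRingEnd ℂ) ζ = ζ⁻¹ := by
    rw [Complex.inv_def, Complex.normSq_eq_norm_sq, hz]; simp
  have key : ∀ j, (ζ ^ j) ^ i * (starRingEnd ℂ) ((ζ ^ j) ^ l) = (ζ ^ i * (ζ ^ l)⁻¹) ^ j := by
    intro j
    rw [map_pow, map_pow, hconj, mul_pow, inv_pow, inv_pow, inv_pow, ← pow_mul, ← pow_mul,
      ← pow_mul, ← pow_mul, mul_comm j i, mul_comm j l]
  rw [Finset.sum_congr rfl fun j _ => key j]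
  have hw : (ζ ^ i * (ζ ^ l)⁻¹) ^ n = 1 := by
    rw [mul_pow, inv_pow, ← pow_mul, ← pow_mul, mul_comm i n, mul_comm l n, pow_mul, pow_mul,
      hζ.pow_eq_one]
    simp
  by_cases h : i % n = l % n
  · rw [if_pos h]
    have : ζ ^ i * (ζ ^ l)⁻¹ = 1 := by
      have h1 : ζ ^ i = ζ ^ l := by
        rw [← pow_mod_orderOf ζ i, ← pow_mod_orderOf ζ l, ← hζ.eq_orderOf, h]
      rw [h1, mul_inv_cancel₀ (pow_ne_zero _ hne)]
    simp [this]
  · rw [if_neg h]
    have hne1 : ζ ^ i * (ζ ^ l)⁻¹ ≠ 1 := by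
      intro h1
      have h2 : ζ ^ i = ζ ^ l := by
        field_simp at h1
        exact h1
      rw [← pow_mod_orderOf ζ i, ← pow_mod_orderOf ζ l, ← hζ.eq_orderOf] at h2
      exact h (hζ.pow_inj (Nat.mod_lt _ hn) (Nat.mod_lt _ hn) h2)
    have := geom_sum_eq hne1 n
    rw [this, hw]
    simp

/-- the average of `|P|²` over a coset of the `n`-th roots of unity -/
theorem avg {n : ℕ} (hn : 0 < n) {ζ : ℂ} (hζ : IsPrimitiveRoot ζ n) (a : ℕ → ℝ) (m : ℕ) (z : ℂ) :
    ((∑ j ∈ range n, ‖poly a m (ζ ^ j * z)‖ ^ 2 : ℝ) : ℂ) =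
      n * ∑ i ∈ range m, ∑ l ∈ range m,
        if i % n = l % n then (a i : ℂ) * a l * (z ^ i * (starRingEnd ℂ) (z ^ l)) else 0 := by
  have h1 : ∀ j, ((‖poly a m (ζ ^ j * z)‖ ^ 2 : ℝ) : ℂ) =
      ∑ i ∈ range m, ∑ l ∈ range m, (a i : ℂ) * a l * (z ^ i * (starRingEnd ℂ) (z ^ l)) *
        ((ζ ^ j) ^ i * (starRingEnd ℂ) ((ζ ^ j) ^ l)) := by
    intro j
    rw [← Complex.normSq_eq_norm_sq, ← Complex.mul_conj, poly, map_sum, Finset.sum_mul_sum]
    refine Finset.sum_congr rfl fun i _ => Finset.sum_congr rfl fun l _ => ?_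
    simp only [map_mul, mul_pow, Complex.conj_ofReal, map_pow]
    ring
  push_cast
  have h2 : ∀ j, ((‖poly a m (ζ ^ j * z)‖ : ℂ)) ^ 2 = ((‖poly a m (ζ ^ j * z)‖ ^ 2 : ℝ) : ℂ) := by
    intro j; push_cast; rfl
  simp only [h2, h1]
  rw [Finset.sum_comm, Finset.mul_sum]
  refine Finset.sum_congr rfl fun i _ => ?_
  rw [Finset.sum_comm, Finset.mul_sum]
  refine Finset.sum_congr rfl fun l _ => ?_
  rw [← Finset.mul_sum, orth hn hζ i l]
  split_ifs <;> ring

theorem sign_mul {x : ℝ} (h : x = 1 ∨ x = -1) : x * x = 1 := by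
  rcases h with h | h <;> simp [h]

theorem unit_mul {z : ℂ} (hz : ‖z‖ = 1) (i : ℕ) : z ^ i * (starRingEnd ℂ) (z ^ i) = 1 := by
  rw [Complex.mul_conj, Complex.normSq_eq_norm_sq, norm_pow, hz]; simp

theorem avg_diag {m : ℕ} (hm : 0 < m) {ζ : ℂ} (hζ : IsPrimitiveRoot ζ m) (a : ℕ → ℝ)
    (ha : Signs a m) {z : ℂ} (hz : ‖z‖ = 1) :
    ∑ j ∈ range m, ‖poly a m (ζ ^ j * z)‖ ^ 2 = (m : ℝ) * m := by
  have h := avg hm hζ a m z
  have h2 : ∑ i ∈ range m, ∑ l ∈ range m,
        (if i % m = l % m then (a i : ℂ) * a l * (z ^ i * (starRingEnd ℂ) (z ^ l)) else 0) =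
        (m : ℂ) := by
    rw [Finset.sum_congr rfl (g := fun _ => (1 : ℂ))]
    · simp
    · intro i hi
      have hi' : i < m := Finset.mem_range.mp hi
      rw [Finset.sum_eq_single i]
      · rw [if_pos rfl, unit_mul hz, mul_one]
        have := sign_mul (ha i hi')
        exact_mod_cast this
      · intro l hl hne
        have hl' : l < m := Finset.mem_range.mp hl
        rw [if_neg]
        rw [Nat.mod_eq_of_lt hi', Nat.mod_eq_of_lt hl']
        exact fun h => hne h.symm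
      · intro h; exact absurd hi h
  rw [h2] at h
  exact_mod_cast h

theorem avg_next {M : ℕ} (hM : 0 < M) {ζ : ℂ} (hζ : IsPrimitiveRoot ζ M) (a : ℕ → ℝ)
    (ha : Signs a (M + 1)) {z : ℂ} (hz : ‖z‖ = 1) (s : ℝ) (hs : z ^ M = (s : ℂ)) :
    ∑ j ∈ range M, ‖poly a (M + 1) (ζ ^ j * z)‖ ^ 2 = (M : ℝ) * (M + 1 + 2 * (a 0 * a M * s)) := by
  have h := avg hM hζ a (M + 1) z
  have hin : ∀ i ∈ range M, ∑ l ∈ range M,
        (if i % M = l % M then (a i : ℂ) * a l * (z ^ i * (starRingEnd ℂ) (z ^ l)) else 0) = 1 := by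
    intro i hi
    have hi' : i < M := Finset.mem_range.mp hi
    rw [Finset.sum_eq_single i]
    · rw [if_pos rfl, unit_mul hz, mul_one]
      have := sign_mul (ha i (by omega))
      exact_mod_cast this
    · intro l hl hne
      have hl' : l < M := Finset.mem_range.mp hl
      rw [if_neg]
      rw [Nat.mod_eq_of_lt hi', Nat.mod_eq_of_lt hl']
      exact fun h => hne h.symm
    · intro h; exact absurd hi h
  have h0 : 0 ∈ range M := Finset.mem_range.mpr hM
  have hright : ∑ i ∈ range M,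
      (if i % M = M % M then (a i : ℂ) * a M * (z ^ i * (starRingEnd ℂ) (z ^ M)) else 0) =
        a 0 * a M * s := by
    rw [Finset.sum_eq_single 0]
    · simp [hs]
    · intro l hl hne
      have hl' : l < M := Finset.mem_range.mp hl
      rw [if_neg]
      rw [Nat.mod_eq_of_lt hl', Nat.mod_self]
      exact hne
    · intro h; exact absurd h0 h
  have hleft : ∑ l ∈ range M,
      (if M % M = l % M then (a M : ℂ) * a l * (z ^ M * (starRingEnd ℂ) (z ^ l)) else 0) =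
        a 0 * a M * s := by
    rw [Finset.sum_eq_single 0]
    · rw [if_pos (by simp), hs, pow_zero, map_one]
      ring
    · intro l hl hne
      have hl' : l < M := Finset.mem_range.mp hl
      rw [if_neg]
      rw [Nat.mod_eq_of_lt hl', Nat.mod_self]
      exact fun h => hne h.symm
    · intro h; exact absurd h0 h
  have h2 : ∑ i ∈ range (M + 1), ∑ l ∈ range (M + 1),
        (if i % M = l % M then (a i : ℂ) * a l * (z ^ i * (starRingEnd ℂ) (z ^ l)) else 0) =
        (M + 1 + 2 * (a 0 * a M * s) : ℂ) := by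
    rw [Finset.sum_range_succ]
    simp only [Finset.sum_range_succ _ M]
    rw [Finset.sum_add_distrib, Finset.sum_congr rfl hin, hright, hleft, unit_mul hz]
    have := sign_mul (ha M (by omega))
    have h3 : (a M : ℂ) * a M = 1 := by exact_mod_cast this
    rw [h3]
    simp
    ring
  rw [h2] at h
  exact_mod_cast h

theorem extremes {m : ℕ} (hm : 2 ≤ m) (a : ℕ → ℝ) (ha : Signs a m) (s : ℝ) (hs : s = 1 ∨ s = -1) :
    ∃ ζ z : ℂ, IsPrimitiveRoot ζ (m - 1) ∧ ‖ζ‖ = 1 ∧ ‖z‖ = 1 ∧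
      ∑ j ∈ range (m - 1), ‖poly a m (ζ ^ j * z)‖ ^ 2 = ((m : ℝ) - 1) * (m + 2 * s) := by
  obtain ⟨M, rfl⟩ : ∃ M, m = M + 1 := ⟨m - 1, by omega⟩
  have hM : 0 < M := by omega
  have hζ := Complex.isPrimitiveRoot_exp M hM.ne'
  obtain ⟨z, hz⟩ := IsAlgClosed.exists_pow_nat_eq ((a 0 * a M * s : ℝ) : ℂ) hM
  have h0 := ha 0 (by omega)
  have h1 := ha M (by omega)
  have hn : ‖z‖ ^ M = 1 := by
    rw [← norm_pow, hz, Complex.norm_real]
    rcases h0 with h0 | h0 <;> rcases h1 with h1 | h1 <;> rcases hs with hs | hs <;>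
      simp [h0, h1, hs]
  have hn1 : ‖z‖ = 1 := (pow_eq_one_iff_of_nonneg (norm_nonneg _) hM.ne').mp hn
  refine ⟨_, z, hζ, hζ.norm'_eq_one hM.ne', hn1, ?_⟩
  have := avg_next hM hζ a ha hn1 _ hz
  rw [Nat.add_sub_cancel, this]
  have h2 : a 0 * a M * (a 0 * a M * s) = s := by
    have e0 := sign_mul h0
    have e1 := sign_mul h1
    calc a 0 * a M * (a 0 * a M * s) = (a 0 * a 0) * (a M * a M) * s := by ring
      _ = s := by rw [e0, e1]; ring
  rw [h2]
  push_cast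
  ring

theorem flat_bounds {m : ℕ} (hm : 2 ≤ m) (a : ℕ → ℝ) (ha : Signs a m) {l u : ℝ} (hl : 0 ≤ l)
    (h : Flat l u a m) : (2 : ℝ) ≤ (u ^ 2 - 1) * m ∧ (2 : ℝ) ≤ (1 - l ^ 2) * m := by
  have hm' : (2 : ℝ) ≤ m := by exact_mod_cast hm
  have hsq : √(m : ℝ) ^ 2 = m := Real.sq_sqrt (by positivity)
  have hcard : ((m - 1 : ℕ) : ℝ) = (m : ℝ) - 1 := by
    rw [Nat.cast_sub (by omega)]; simp
  constructor
  · obtain ⟨ζ, z, -, hζ, hz, he⟩ := extremes hm a ha 1 (Or.inl rfl)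
    have hle : ∑ j ∈ range (m - 1), ‖poly a m (ζ ^ j * z)‖ ^ 2 ≤
        ∑ j ∈ range (m - 1), u ^ 2 * m := by
      refine Finset.sum_le_sum fun j _ => ?_
      have h1 := (h (ζ ^ j * z) (by rw [norm_mul, norm_pow, hζ, hz]; simp)).2
      calc ‖poly a m (ζ ^ j * z)‖ ^ 2 ≤ (u * √m) ^ 2 := by gcongr
        _ = u ^ 2 * m := by rw [mul_pow, hsq]
    rw [he, Finset.sum_const, Finset.card_range, nsmul_eq_mul, hcard] at hle
    have := le_of_mul_le_mul_left hle (by linarith)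
    nlinarith
  · obtain ⟨ζ, z, -, hζ, hz, he⟩ := extremes hm a ha (-1) (Or.inr rfl)
    have hle : ∑ j ∈ range (m - 1), l ^ 2 * m ≤
        ∑ j ∈ range (m - 1), ‖poly a m (ζ ^ j * z)‖ ^ 2 := by
      refine Finset.sum_le_sum fun j _ => ?_
      have h1 := (h (ζ ^ j * z) (by rw [norm_mul, norm_pow, hζ, hz]; simp)).1
      calc l ^ 2 * m = (l * √m) ^ 2 := by rw [mul_pow, hsq]
        _ ≤ ‖poly a m (ζ ^ j * z)‖ ^ 2 := by gcongr
    rw [he, Finset.sum_const, Finset.card_range, nsmul_eq_mul, hcard] at hle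
    have := le_of_mul_le_mul_left hle (by linarith)
    nlinarith

theorem flat_right {m k : ℕ} (hm : 0 < m) (a b : ℕ → ℝ) (ha : Signs a m) {l u : ℝ} (hl : 0 ≤ l)
    (hu : 0 ≤ u) (h : Flat l u (kron m a b) (m * k)) : Flat l u b k := by
  intro w hw
  have hζ := Complex.isPrimitiveRoot_exp m hm.ne'
  set ζ := Complex.exp (2 * Real.pi * I / m) with hζdef
  have hζ1 : ‖ζ‖ = 1 := hζ.norm'_eq_one hm.ne'
  obtain ⟨z, hz⟩ := IsAlgClosed.exists_pow_nat_eq w hm
  have hz1 : ‖z‖ = 1 := by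
    refine (pow_eq_one_iff_of_nonneg (norm_nonneg _) hm.ne').mp ?_
    rw [← norm_pow, hz, hw]
  have hpow : ∀ j, (ζ ^ j * z) ^ m = w := by
    intro j
    rw [mul_pow, hz, ← pow_mul, mul_comm j m, pow_mul, hζ.pow_eq_one, one_pow, one_mul]
  have hP : ∀ j, ‖poly (kron m a b) (m * k) (ζ ^ j * z)‖ ^ 2 =
      ‖poly a m (ζ ^ j * z)‖ ^ 2 * ‖poly b k w‖ ^ 2 := by
    intro j
    rw [poly_kron m k hm, hpow, norm_mul, mul_pow]
  have hsum : ∑ j ∈ range m, ‖poly (kron m a b) (m * k) (ζ ^ j * z)‖ ^ 2 =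
      (m : ℝ) * (m * ‖poly b k w‖ ^ 2) := by
    simp only [hP]
    rw [← Finset.sum_mul, avg_diag hm hζ a ha hz1]
    ring
  have hmk : √((m * k : ℕ) : ℝ) ^ 2 = m * k := by
    rw [Real.sq_sqrt (by positivity)]; push_cast; ring
  have hk2 : √(k : ℝ) ^ 2 = k := Real.sq_sqrt (by positivity)
  have hm' : (0 : ℝ) < m := by exact_mod_cast hm
  constructor
  · have h1 : (m : ℝ) * (l ^ 2 * (m * k)) ≤ (m : ℝ) * (m * ‖poly b k w‖ ^ 2) := by
      rw [← hsum]
      have : (m : ℝ) * (l ^ 2 * (m * k)) = ∑ j ∈ range m, l ^ 2 * (m * k) := by simp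
      rw [this]
      refine Finset.sum_le_sum fun j _ => ?_
      have h2 := (h (ζ ^ j * z) (by rw [norm_mul, norm_pow, hζ1, hz1]; simp)).1
      calc l ^ 2 * ((m : ℝ) * k) = (l * √((m * k : ℕ) : ℝ)) ^ 2 := by rw [mul_pow, hmk]
        _ ≤ _ := by gcongr
    have h3 : l ^ 2 * k ≤ ‖poly b k w‖ ^ 2 := by
      have := le_of_mul_le_mul_left h1 hm'
      have h4 : (m : ℝ) * (l ^ 2 * k) ≤ m * ‖poly b k w‖ ^ 2 := by nlinarith
      exact le_of_mul_le_mul_left h4 hm'
    have h5 : (l * √k) ^ 2 ≤ ‖poly b k w‖ ^ 2 := by rw [mul_pow, hk2]; exact h3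
    exact (pow_le_pow_iff_left₀ (by positivity) (norm_nonneg _) two_ne_zero).mp h5
  · have h1 : (m : ℝ) * (m * ‖poly b k w‖ ^ 2) ≤ (m : ℝ) * (u ^ 2 * (m * k)) := by
      rw [← hsum]
      have : (m : ℝ) * (u ^ 2 * (m * k)) = ∑ j ∈ range m, u ^ 2 * (m * k) := by simp
      rw [this]
      refine Finset.sum_le_sum fun j _ => ?_
      have h2 := (h (ζ ^ j * z) (by rw [norm_mul, norm_pow, hζ1, hz1]; simp)).2
      calc _ ≤ (u * √((m * k : ℕ) : ℝ)) ^ 2 := by gcongr
        _ = u ^ 2 * ((m : ℝ) * k) := by rw [mul_pow, hmk]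
    have h3 : ‖poly b k w‖ ^ 2 ≤ u ^ 2 * k := by
      have := le_of_mul_le_mul_left h1 hm'
      have h4 : (m : ℝ) * ‖poly b k w‖ ^ 2 ≤ m * (u ^ 2 * k) := by nlinarith
      exact le_of_mul_le_mul_left h4 hm'
    have h5 : ‖poly b k w‖ ^ 2 ≤ (u * √k) ^ 2 := by rw [mul_pow, hk2]; exact h3
    exact (pow_le_pow_iff_left₀ (norm_nonneg _) (by positivity) two_ne_zero).mp h5

theorem flat_left {m k : ℕ} (hm : 0 < m) (hk : 0 < k) (a b : ℕ → ℝ) (ha : Signs a m) {l u : ℝ}
    (hl : 0 < l) (hu : 0 < u) (h : Flat l u (kron m a b) (m * k)) :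
    Flat (l / u) (u / l) a m := by
  have hB := flat_right hm a b ha hl.le hu.le h
  intro z hz
  have h1 := h z hz
  have h2 := hB (z ^ m) (by rw [norm_pow, hz, one_pow])
  rw [poly_kron m k hm, norm_mul] at h1
  have hk0 : 0 < √(k : ℝ) := Real.sqrt_pos.mpr (by exact_mod_cast hk)
  have hmk : √((m * k : ℕ) : ℝ) = √m * √k := by
    push_cast; exact Real.sqrt_mul (by positivity) _
  rw [hmk] at h1
  constructor
  · rw [div_mul_eq_mul_div, div_le_iff₀ hu]
    have : l * √m * √k ≤ ‖poly a m z‖ * u * √k := by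
      calc l * √m * √k = l * (√m * √k) := by ring
        _ ≤ ‖poly a m z‖ * ‖poly b k (z ^ m)‖ := h1.1
        _ ≤ ‖poly a m z‖ * (u * √k) := by gcongr; exact h2.2
        _ = _ := by ring
    exact le_of_mul_le_mul_right this hk0
  · rw [div_mul_eq_mul_div, le_div_iff₀ hl]
    have : ‖poly a m z‖ * l * √k ≤ u * √m * √k := by
      calc ‖poly a m z‖ * l * √k = ‖poly a m z‖ * (l * √k) := by ring
        _ ≤ ‖poly a m z‖ * ‖poly b k (z ^ m)‖ := by gcongr; exact h2.1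
        _ ≤ u * (√m * √k) := h1.2
        _ = _ := by ring
    exact le_of_mul_le_mul_right this hk0

theorem flat_kron {m k : ℕ} (hm : 0 < m) (a b : ℕ → ℝ) {l u : ℝ} (hl : 0 ≤ l) (hu : 0 ≤ u)
    (hA : Flat l u a m) (hB : Flat l u b k) : Flat (l ^ 2) (u ^ 2) (kron m a b) (m * k) := by
  intro z hz
  have h1 := hA z hz
  have h2 := hB (z ^ m) (by rw [norm_pow, hz, one_pow])
  rw [poly_kron m k hm, norm_mul]
  have hmk : √((m * k : ℕ) : ℝ) = √m * √k := by
    push_cast; exact Real.sqrt_mul (by positivity) _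
  rw [hmk]
  constructor
  · calc l ^ 2 * (√m * √k) = (l * √m) * (l * √k) := by ring
      _ ≤ _ := by gcongr; exacts [h1.1, h2.1]
  · calc _ ≤ (u * √m) * (u * √k) := by gcongr; exacts [h1.2, h2.2]
      _ = u ^ 2 * (√m * √k) := by ring

/-- `(ε n)` is a sequence of Littlewood polynomials, of lengths `N n → ∞`, that is ultraflat -/
def Ultraflat (ε : ℕ → ℕ → ℝ) (N : ℕ → ℕ) : Prop :=
  (∀ n, Signs (ε n) (N n)) ∧ Filter.Tendsto N Filter.atTop Filter.atTop ∧
    ∀ c > 0, ∀ᶠ n in Filter.atTop, Flat (1 - c) (1 + c) (ε n) (N n)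

theorem flat_mono {l u l' u' : ℝ} (hl : l' ≤ l) (hu : u ≤ u') {ε : ℕ → ℝ} {N : ℕ}
    (h : Flat l u ε N) : Flat l' u' ε N := by
  intro z hz
  have := h z hz
  have hs : 0 ≤ √(N : ℝ) := Real.sqrt_nonneg _
  exact ⟨(mul_le_mul_of_nonneg_right hl hs).trans this.1,
    this.2.trans (mul_le_mul_of_nonneg_right hu hs)⟩

/-- the bounds for one product -/
theorem product {m k : ℕ} (hm : 2 ≤ m) (hk : 2 ≤ k) (a b : ℕ → ℝ) (ha : Signs a m)
    (hb : Signs b k) {c : ℝ} (hc : 0 ≤ c) (hc1 : c < 1)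
    (h : Flat (1 - c) (1 + c) (kron m a b) (m * k)) :
    Flat (1 - c) (1 + c) b k ∧ Flat ((1 - c) / (1 + c)) ((1 + c) / (1 - c)) a m ∧
      1 / (2 * (m : ℝ)) ≤ c ∧ 1 / (k : ℝ) ≤ c := by
  have hm0 : 0 < m := by omega
  have hk0 : 0 < k := by omega
  have hB := flat_right hm0 a b ha (by linarith) (by linarith) h
  have hA := flat_left hm0 hk0 a b ha (by linarith) (by linarith) h
  refine ⟨hB, hA, ?_, ?_⟩
  · have h1 := (flat_bounds hm a ha (div_nonneg (by linarith) (by linarith)) hA).2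
    have hm' : (0 : ℝ) < m := by exact_mod_cast hm0
    have hc' : (0 : ℝ) < (1 + c) ^ 2 := by positivity
    have h2 : (1 - ((1 - c) / (1 + c)) ^ 2) = 4 * c / (1 + c) ^ 2 := by
      field_simp
      ring
    rw [h2, div_mul_eq_mul_div, le_div_iff₀ hc'] at h1
    rw [div_le_iff₀ (by positivity)]
    nlinarith
  · have h1 := (flat_bounds hk b hb (by linarith) hB).2
    have hk' : (0 : ℝ) < k := by exact_mod_cast hk0
    rw [div_le_iff₀ hk']
    nlinarith [mul_nonneg (mul_nonneg hc hc) hk'.le]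

open Filter in
theorem ultraflat_iff (a b : ℕ → ℕ → ℝ) (m k : ℕ → ℕ) (hm : ∀ n, 2 ≤ m n) (hk : ∀ n, 2 ≤ k n)
    (ha : ∀ n, Signs (a n) (m n)) (hb : ∀ n, Signs (b n) (k n)) :
    Ultraflat (fun n => kron (m n) (a n) (b n)) (fun n => m n * k n) ↔
      Ultraflat a m ∧ Ultraflat b k := by
  constructor
  · rintro ⟨-, -, h⟩
    have hall : ∀ c : ℝ, 0 < c → c < 1 → ∀ᶠ n in atTop,
        Flat (1 - c) (1 + c) (b n) (k n) ∧ Flat ((1 - c) / (1 + c)) ((1 + c) / (1 - c)) (a n) (m n) ∧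
        1 / (2 * (m n : ℝ)) ≤ c ∧ 1 / (k n : ℝ) ≤ c := by
      intro c hc hc1
      filter_upwards [h c hc] with n hn
      exact product (hm n) (hk n) (a n) (b n) (ha n) (hb n) hc.le hc1 hn
    refine ⟨⟨ha, ?_, ?_⟩, ⟨hb, ?_, ?_⟩⟩
    · rw [tendsto_atTop]
      intro M
      have hc : (0 : ℝ) < 1 / (2 * ((M : ℝ) + 1)) := by positivity
      have hc1 : 1 / (2 * ((M : ℝ) + 1)) < 1 := by
        rw [div_lt_one (by positivity)]
        have : (0 : ℝ) ≤ M := by positivity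
        linarith
      filter_upwards [hall _ hc hc1] with n hn
      have h1 := hn.2.2.1
      have hpos : (0 : ℝ) < 2 * (m n : ℝ) := by
        have : (2 : ℝ) ≤ m n := by exact_mod_cast hm n
        linarith
      have h2 : 2 * ((M : ℝ) + 1) ≤ 2 * m n := (one_div_le_one_div hpos (by positivity)).mp h1
      have h3 : (M : ℝ) ≤ m n := by linarith
      exact_mod_cast h3
    · intro c hc
      set x : ℝ := min c 1 / 4 with hx
      have hx0 : 0 < x := by rw [hx]; have := lt_min hc one_pos; linarith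
      have hxc : x ≤ c / 4 := by rw [hx]; have := min_le_left c 1; linarith
      have hx1 : x ≤ 1 / 4 := by rw [hx]; have := min_le_right c 1; linarith
      filter_upwards [hall x hx0 (by linarith)] with n hn
      refine flat_mono ?_ ?_ hn.2.1
      · rw [le_div_iff₀ (by linarith)]
        nlinarith
      · rw [div_le_iff₀ (by linarith)]
        nlinarith
    · rw [tendsto_atTop]
      intro M
      have hc : (0 : ℝ) < 1 / ((M : ℝ) + 2) := by positivity
      have hc1 : 1 / ((M : ℝ) + 2) < 1 := by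
        rw [div_lt_one (by positivity)]
        have : (0 : ℝ) ≤ M := by positivity
        linarith
      filter_upwards [hall _ hc hc1] with n hn
      have h1 := hn.2.2.2
      have hpos : (0 : ℝ) < (k n : ℝ) := by
        have : (2 : ℝ) ≤ k n := by exact_mod_cast hk n
        linarith
      have h2 : ((M : ℝ) + 2) ≤ k n := (one_div_le_one_div hpos (by positivity)).mp h1
      have h3 : (M : ℝ) ≤ k n := by linarith
      exact_mod_cast h3
    · intro c hc
      set x : ℝ := min c (1 / 2) with hx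
      have hx0 : 0 < x := lt_min hc (by norm_num)
      have hxc : x ≤ c := min_le_left _ _
      have hx1 : x ≤ 1 / 2 := min_le_right _ _
      filter_upwards [hall x hx0 (by linarith)] with n hn
      exact flat_mono (by linarith) (by linarith) hn.1
  · rintro ⟨⟨-, h1, h2⟩, ⟨-, h3, h4⟩⟩
    refine ⟨fun n => signs_kron _ _ (by have := hm n; omega) _ _ (ha n) (hb n),
      h1.atTop_mul_atTop₀ h3, ?_⟩
    intro c hc
    set x : ℝ := min c 1 / 3 with hx
    have hx0 : 0 < x := by rw [hx]; have := lt_min hc one_pos; linarith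
    have hxc : x ≤ c / 3 := by rw [hx]; have := min_le_left c 1; linarith
    have hx1 : x ≤ 1 / 3 := by rw [hx]; have := min_le_right c 1; linarith
    filter_upwards [h2 x hx0, h4 x hx0] with n hA hB
    have := flat_kron (by have := hm n; omega) (a n) (b n) (l := 1 - x) (u := 1 + x)
      (by linarith) (by linarith) hA hB
    refine flat_mono ?_ ?_ this
    · nlinarith
    · nlinarith

end Vale.Agent.P110
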