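import Vale.Agent.P110R.Main

namespace Vale.Agent.P110

/-- the sign sequence `ε` of length `N` is not a Kronecker product of two sign sequences of
length at least `2`, that is, `P` is not of the form `A(z) B(z ^ m)` with Littlewood
polynomials `A` of length `m ≥ 2` and `B` of length at least `2` -/
def Indecomposable (ε : ℕ → ℝ) (N : ℕ) : Prop :=
  ¬ ∃ (m k : ℕ) (a b : ℕ → ℝ), 2 ≤ m ∧ 2 ≤ k ∧ m * k = N ∧ Signs a m ∧ Signs b k ∧
    ∀ n < N, ε n = kron m a b n

theorem poly_congr {ε δ : ℕ → ℝ} {N : ℕ} (h : ∀ n < N, ε n = δ n) (z : ℂ) :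
    poly ε N z = poly δ N z := by
  unfold poly
  exact Finset.sum_congr rfl fun k hk => by rw [h k (Finset.mem_range.mp hk)]

theorem reduce {c : ℝ} (hc : 0 ≤ c) (hc1 : c < 1) : ∀ (N : ℕ), 2 ≤ N → ∀ ε : ℕ → ℝ, Signs ε N →
    Flat (1 - c) (1 + c) ε N → ∃ N' : ℕ, 2 ≤ N' ∧ ∃ δ : ℕ → ℝ, Signs δ N' ∧
      Indecomposable δ N' ∧ Flat (1 - c) (1 + c) δ N' := by
  intro N
  induction N using Nat.strong_induction_on with
  | _ N ih =>
    intro hN ε hε hf
    by_cases hI : Indecomposable ε N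
    · exact ⟨N, hN, ε, hε, hI, hf⟩
    · unfold Indecomposable at hI
      rw [not_not] at hI
      obtain ⟨m, k, a, b, hm, hk, hmk, ha, hb, hab⟩ := hI
      subst hmk
      have hf' : Flat (1 - c) (1 + c) (kron m a b) (m * k) := by
        intro z hz
        rw [← poly_congr hab z]
        exact hf z hz
      have hB := flat_right (by omega) a b ha (by linarith) (by linarith) hf'
      exact ih k (by nlinarith) hk b hb hB

theorem length_bound {c : ℝ} (hc1 : c < 1) {N : ℕ} (hN : 2 ≤ N) {ε : ℕ → ℝ}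
    (hε : Signs ε N) (h : Flat (1 - c) (1 + c) ε N) : 1 ≤ c * N := by
  have h1 := (flat_bounds hN ε hε (by linarith) h).2
  have hN' : (0 : ℝ) < N := by exact_mod_cast (by omega : 0 < N)
  nlinarith [mul_nonneg (sq_nonneg c) hN'.le]

theorem indec_iff :
    (∀ c : ℝ, 0 < c → ∀ L : ℕ, ∃ N ≥ L, ∃ ε : ℕ → ℝ, Signs ε N ∧ Flat (1 - c) (1 + c) ε N) ↔
    (∀ c : ℝ, 0 < c → ∃ N ≥ 2, ∃ ε : ℕ → ℝ, Signs ε N ∧ Indecomposable ε N ∧
      Flat (1 - c) (1 + c) ε N) := by
  constructor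
  · intro h c hc
    have hc' : 0 < min c (1 / 2) := lt_min hc (by norm_num)
    have hc1 : min c (1 / 2) < 1 := (min_le_right _ _).trans_lt (by norm_num)
    obtain ⟨N, hN, ε, hε, hf⟩ := h _ hc' 2
    obtain ⟨N', hN', δ, hδ, hI, hF⟩ := reduce hc'.le hc1 N hN ε hε hf
    have := min_le_left c (1 / 2)
    exact ⟨N', hN', δ, hδ, hI, flat_mono (by linarith) (by linarith) hF⟩
  · intro h c hc L
    have hL : (0 : ℝ) < 1 / ((L : ℝ) + 2) := by positivity
    have hL1 : 1 / ((L : ℝ) + 2) < 1 := by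
      rw [div_lt_one (by positivity)]
      have : (0 : ℝ) ≤ L := by positivity
      linarith
    have hc' : 0 < min c (1 / ((L : ℝ) + 2)) := lt_min hc hL
    have hle := min_le_right c (1 / ((L : ℝ) + 2))
    obtain ⟨N, hN, ε, hε, -, hF⟩ := h _ hc'
    have h1 := length_bound (hle.trans_lt hL1) hN hε hF
    have hN0 : (0 : ℝ) ≤ N := by positivity
    have h2 : 1 ≤ 1 / ((L : ℝ) + 2) * N := h1.trans (mul_le_mul_of_nonneg_right hle hN0)
    rw [div_mul_eq_mul_div, one_mul, le_div_iff₀ (by positivity), one_mul] at h2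
    have h3 : (L : ℝ) ≤ N := by linarith
    have := min_le_left c (1 / ((L : ℝ) + 2))
    exact ⟨N, by exact_mod_cast h3, ε, hε, flat_mono (by linarith) (by linarith) hF⟩

end Vale.Agent.P110
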